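import Vale.Agent.P011.E6.Ids

/-!
Coordinates of the hermitian matrices over split octonions: a quaternion is written
`α e + β e' + γ e j + δ e' j` with `e = (1 + i / al) / 2`, `e' = 1 - e`, `al ^ 2 = a`.
-/

namespace Vale.Agent.P011.E6O

open Vale.Agent.P011.MPQ Vale.Agent.P011.D4 Vale.Agent.P011.D4.Oct Vale.Agent.P011.E6

section quat

variable {F : Type} [Field F] {a b c : Fˣ} (al : F)

/-- The coordinate at `e`. -/
def ca (q : Qt a b) : F := q.re + al * q.imI
/-- The coordinate at `e'`. -/
def cb (q : Qt a b) : F := q.re - al * q.imI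
/-- The coordinate at `e j`. -/
def cg (q : Qt a b) : F := q.imJ + al * q.imK
/-- The coordinate at `e' j`. -/
def cd (q : Qt a b) : F := q.imJ - al * q.imK

@[simp] theorem ca_zero : ca al (0 : Qt a b) = 0 := by simp [ca]
@[simp] theorem cb_zero : cb al (0 : Qt a b) = 0 := by simp [cb]
@[simp] theorem cg_zero : cg al (0 : Qt a b) = 0 := by simp [cg]
@[simp] theorem cd_zero : cd al (0 : Qt a b) = 0 := by simp [cd]
@[simp] theorem ca_add (p q : Qt a b) : ca al (p + q) = ca al p + ca al q := by
  simp only [ca, QuaternionAlgebra.re_add, QuaternionAlgebra.imI_add]; ring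
@[simp] theorem cb_add (p q : Qt a b) : cb al (p + q) = cb al p + cb al q := by
  simp only [cb, QuaternionAlgebra.re_add, QuaternionAlgebra.imI_add]; ring
@[simp] theorem cg_add (p q : Qt a b) : cg al (p + q) = cg al p + cg al q := by
  simp only [cg, QuaternionAlgebra.imJ_add, QuaternionAlgebra.imK_add]; ring
@[simp] theorem cd_add (p q : Qt a b) : cd al (p + q) = cd al p + cd al q := by
  simp only [cd, QuaternionAlgebra.imJ_add, QuaternionAlgebra.imK_add]; ring
@[simp] theorem ca_neg (p : Qt a b) : ca al (-p) = -ca al p := by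
  simp only [ca, QuaternionAlgebra.re_neg, QuaternionAlgebra.imI_neg]; ring
@[simp] theorem cb_neg (p : Qt a b) : cb al (-p) = -cb al p := by
  simp only [cb, QuaternionAlgebra.re_neg, QuaternionAlgebra.imI_neg]; ring
@[simp] theorem cg_neg (p : Qt a b) : cg al (-p) = -cg al p := by
  simp only [cg, QuaternionAlgebra.imJ_neg, QuaternionAlgebra.imK_neg]; ring
@[simp] theorem cd_neg (p : Qt a b) : cd al (-p) = -cd al p := by
  simp only [cd, QuaternionAlgebra.imJ_neg, QuaternionAlgebra.imK_neg]; ring
@[simp] theorem ca_sub (p q : Qt a b) : ca al (p - q) = ca al p - ca al q := by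
  rw [sub_eq_add_neg, ca_add, ca_neg, sub_eq_add_neg]
@[simp] theorem cb_sub (p q : Qt a b) : cb al (p - q) = cb al p - cb al q := by
  rw [sub_eq_add_neg, cb_add, cb_neg, sub_eq_add_neg]
@[simp] theorem cg_sub (p q : Qt a b) : cg al (p - q) = cg al p - cg al q := by
  rw [sub_eq_add_neg, cg_add, cg_neg, sub_eq_add_neg]
@[simp] theorem cd_sub (p q : Qt a b) : cd al (p - q) = cd al p - cd al q := by
  rw [sub_eq_add_neg, cd_add, cd_neg, sub_eq_add_neg]
@[simp] theorem ca_smul (t : F) (p : Qt a b) : ca al (t • p) = t * ca al p := by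
  simp only [ca, QuaternionAlgebra.re_smul, QuaternionAlgebra.imI_smul, smul_eq_mul]; ring
@[simp] theorem cb_smul (t : F) (p : Qt a b) : cb al (t • p) = t * cb al p := by
  simp only [cb, QuaternionAlgebra.re_smul, QuaternionAlgebra.imI_smul, smul_eq_mul]; ring
@[simp] theorem cg_smul (t : F) (p : Qt a b) : cg al (t • p) = t * cg al p := by
  simp only [cg, QuaternionAlgebra.imJ_smul, QuaternionAlgebra.imK_smul, smul_eq_mul]; ring
@[simp] theorem cd_smul (t : F) (p : Qt a b) : cd al (t • p) = t * cd al p := by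
  simp only [cd, QuaternionAlgebra.imJ_smul, QuaternionAlgebra.imK_smul, smul_eq_mul]; ring
@[simp] theorem ca_star (p : Qt a b) : ca al (star p) = cb al p := by
  simp [ca, cb, sub_eq_add_neg]
@[simp] theorem cb_star (p : Qt a b) : cb al (star p) = ca al p := by
  simp [ca, cb, sub_eq_add_neg]
@[simp] theorem cg_star (p : Qt a b) : cg al (star p) = -cg al p := by
  simp [cg]; ring
@[simp] theorem cd_star (p : Qt a b) : cd al (star p) = -cd al p := by
  simp [cd]; ring

variable {al}

theorem ca_mul (hal : al ^ 2 = a) (p q : Qt a b) :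
    ca al (p * q) = ca al p * ca al q + b * (cg al p * cd al q) := by
  simp only [ca, cg, cd, QuaternionAlgebra.re_mul, QuaternionAlgebra.imI_mul]
  linear_combination (-(p.imI * q.imI) + b * (p.imK * q.imK)) * hal

theorem cb_mul (hal : al ^ 2 = a) (p q : Qt a b) :
    cb al (p * q) = cb al p * cb al q + b * (cd al p * cg al q) := by
  simp only [cb, cg, cd, QuaternionAlgebra.re_mul, QuaternionAlgebra.imI_mul]
  linear_combination (-(p.imI * q.imI) + b * (p.imK * q.imK)) * hal

theorem cg_mul (hal : al ^ 2 = a) (p q : Qt a b) :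
    cg al (p * q) = ca al p * cg al q + cg al p * cb al q := by
  simp only [ca, cb, cg, QuaternionAlgebra.imJ_mul, QuaternionAlgebra.imK_mul]
  linear_combination (p.imK * q.imI - p.imI * q.imK) * hal

theorem cd_mul (hal : al ^ 2 = a) (p q : Qt a b) :
    cd al (p * q) = cb al p * cd al q + cd al p * ca al q := by
  simp only [ca, cb, cd, QuaternionAlgebra.imJ_mul, QuaternionAlgebra.imK_mul]
  linear_combination (p.imK * q.imI - p.imI * q.imK) * hal

theorem nrd_co (hal : al ^ 2 = a) (p : Qt a b) :
    nrd p = ca al p * cb al p - b * (cg al p * cd al p) := by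
  simp only [nrd, ca, cb, cg, cd]
  linear_combination (p.imI ^ 2 - b * p.imK ^ 2) * hal

theorem ext_co (h2 : (2 : F) ≠ 0) (hal : al ^ 2 = a) {p q : Qt a b} (h1 : ca al p = ca al q)
    (h3 : cb al p = cb al q) (h4 : cg al p = cg al q) (h5 : cd al p = cd al q) : p = q := by
  have ha : al ≠ 0 := by
    rintro rfl
    exact a.ne_zero (by rw [← hal]; ring)
  simp only [ca, cb, cg, cd] at h1 h3 h4 h5
  have e1 : 2 * p.re = 2 * q.re := by linear_combination h1 + h3
  have e2 : 2 * al * p.imI = 2 * al * q.imI := by linear_combination h1 - h3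
  have e3 : 2 * p.imJ = 2 * q.imJ := by linear_combination h4 + h5
  have e4 : 2 * al * p.imK = 2 * al * q.imK := by linear_combination h4 - h5
  exact QuaternionAlgebra.ext (mul_left_cancel₀ h2 e1) (mul_left_cancel₀ (mul_ne_zero h2 ha) e2)
    (mul_left_cancel₀ h2 e3) (mul_left_cancel₀ (mul_ne_zero h2 ha) e4)

/-- The quaternion with given coordinates. -/
def mkq (a b : Fˣ) (al p q r s : F) : Qt a b :=
  ⟨(p + q) / 2, (p - q) / (2 * al), (r + s) / 2, (r - s) / (2 * al)⟩

theorem mkq_co (h2 : (2 : F) ≠ 0) (hal : al ^ 2 = a) (p q r s : F) :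
    ca al (mkq a b al p q r s) = p ∧ cb al (mkq a b al p q r s) = q ∧
      cg al (mkq a b al p q r s) = r ∧ cd al (mkq a b al p q r s) = s := by
  have ha : al ≠ 0 := by
    rintro rfl
    exact a.ne_zero (by rw [← hal]; ring)
  refine ⟨?_, ?_, ?_, ?_⟩ <;> simp only [ca, cb, cg, cd, mkq] <;> field_simp <;> ring

end quat

end Vale.Agent.P011.E6O
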