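import Mathlib.LinearAlgebra.Matrix.Adjugate
import Mathlib.LinearAlgebra.FiniteDimensional.Lemmas
import Mathlib.LinearAlgebra.Matrix.ToLin
import Mathlib.LinearAlgebra.Matrix.NonsingularInverse
import Mathlib.Tactic

/-!
Spaces with a semilinear map `φ`, such that `φ ^ 3` is the multiplication by an element which is
not a norm.
-/

namespace Vale.Agent.P011.E6O

/-- The data: an automorphism of order three and an invariant element which is not a norm. -/
structure Cyc {E : Type} [Field E] (ρ : E ≃+* E) (lam : E) : Prop where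
  /-- order three -/
  r3 : ∀ x, ρ (ρ (ρ x)) = x
  /-- invariant -/
  rl : ρ lam = lam
  /-- nonzero -/
  l0 : lam ≠ 0
  /-- not a norm -/
  nn : ∀ x, x * ρ x * ρ (ρ x) ≠ lam

section

variable {E : Type} [Field E] {ρ : E ≃+* E} {lam : E}

theorem Cyc.nn2 (H : Cyc ρ lam) (x : E) : x * ρ x * ρ (ρ x) ≠ lam⁻¹ := by
  intro h
  have hx : x ≠ 0 := by
    rintro rfl
    have := inv_ne_zero H.l0
    rw [← h] at this
    simp at this
  apply H.nn x⁻¹
  rw [map_inv₀, map_inv₀, ← mul_inv, ← mul_inv, h, inv_inv]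

/-- The dimension of a space with a semilinear map `φ`, such that `φ ^ 3` is the multiplication by
`lam`, is divisible by three. -/
theorem Cyc.dvd (H : Cyc ρ lam) {U : Type} [AddCommGroup U] [Module E U]
    [Module.Finite E U] (φ : U → U) (hadd : ∀ x y, φ (x + y) = φ x + φ y)
    (hsmul : ∀ (t : E) x, φ (t • x) = ρ t • φ x)
    (hφ : ∀ x, φ (φ (φ x)) = lam • x) : 3 ∣ Module.finrank E U := by
  classical
  set n := Module.finrank E U with hn
  set e := Module.finBasis E U with he
  have hρ3 := H.r3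
  set A : Matrix (Fin n) (Fin n) E := Matrix.of fun i j => e.repr (φ (e j)) i with hA
  have h0 : φ 0 = 0 := by
    have := hadd 0 0
    rw [add_zero] at this
    exact left_eq_add.1 this
  have hrep : ∀ x, ⇑(e.repr (φ x)) = A.mulVec (fun i => ρ (e.repr x i)) := by
    intro x
    have hx : φ x = ∑ j, ρ (e.repr x j) • φ (e j) := by
      conv_lhs => rw [← e.sum_repr x]
      have : ∀ s : Finset (Fin n), φ (∑ j ∈ s, e.repr x j • e j) =
          ∑ j ∈ s, ρ (e.repr x j) • φ (e j) := by
        intro s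
        induction s using Finset.induction_on with
        | empty => simp [h0]
        | insert j s hj ih => rw [Finset.sum_insert hj, Finset.sum_insert hj, hadd, hsmul, ih]
      exact this Finset.univ
    ext i
    rw [hx, map_sum, Finsupp.finsetSum_apply, Matrix.mulVec, dotProduct]
    refine Finset.sum_congr rfl fun j _ => ?_
    rw [map_smul, Finsupp.smul_apply, hA, Matrix.of_apply, smul_eq_mul, mul_comm]
  have hmap : ∀ (M : Matrix (Fin n) (Fin n) E) (v : Fin n → E),
      (fun i => ρ (M.mulVec v i)) = (M.map ρ).mulVec (fun i => ρ (v i)) := by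
    intro M v
    ext i
    simp [Matrix.mulVec, dotProduct]
  have h4 : A * A.map ρ * (A.map ρ).map ρ = lam • (1 : Matrix (Fin n) (Fin n) E) := by
    apply Matrix.ext_of_mulVec_single
    intro j
    have h5 := hrep (φ (φ (e j)))
    rw [hφ] at h5
    have h6 : (fun i => ρ (e.repr (φ (φ (e j))) i)) =
        (A.map ρ).mulVec (((A.map ρ).map ρ).mulVec (fun i => ρ (ρ (ρ (e.repr (e j) i))))) := by
      rw [hrep (φ (e j)), hmap]
      congr 1
      rw [hrep (e j)]
      rw [← hmap]
      ext i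
      rw [← hmap]
    rw [h6] at h5
    have h7 : (fun i => ρ (ρ (ρ (e.repr (e j) i)))) = Pi.single j (1 : E) := by
      ext i
      rw [hρ3, e.repr_self, Finsupp.single_eq_pi_single]
    rw [h7, Matrix.mulVec_mulVec, Matrix.mulVec_mulVec] at h5
    rw [← h5, map_smul, e.repr_self]
    ext i
    by_cases hij : i = j
    · subst hij
      simp
    · simp [hij]
  have h5 := congrArg Matrix.det h4
  rw [Matrix.det_mul, Matrix.det_mul, Matrix.det_smul, Matrix.det_one, mul_one,
    Fintype.card_fin] at h5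
  have h6 : ∀ M : Matrix (Fin n) (Fin n) E, (M.map ρ).det = ρ M.det := fun M => by
    rw [RingEquiv.map_det]
    rfl
  rw [h6, h6, h6] at h5
  have hl : lam ≠ 0 := H.l0
  have hlr : ∀ m : ℕ, ρ ((lam ^ m)) = lam ^ m := fun m => by rw [map_pow, H.rl]
  by_contra hnd
  have h9 : n % 3 = 1 ∨ n % 3 = 2 := by omega
  rcases h9 with h9 | h9
  · obtain ⟨m, hm⟩ : ∃ m, n = 3 * m + 1 := ⟨n / 3, by omega⟩
    apply H.nn (A.det * (lam ^ m)⁻¹)
    rw [map_mul, map_mul, map_inv₀, map_inv₀, hlr, hlr]
    have : A.det * (lam ^ m)⁻¹ * (ρ A.det * (lam ^ m)⁻¹) * (ρ (ρ A.det) * (lam ^ m)⁻¹) =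
        A.det * ρ A.det * ρ (ρ A.det) * ((lam ^ m)⁻¹ * (lam ^ m)⁻¹ * (lam ^ m)⁻¹) := by ring
    rw [this, h5, hm]
    field_simp
    ring
  · obtain ⟨m, hm⟩ : ∃ m, n = 3 * m + 2 := ⟨n / 3, by omega⟩
    apply H.nn2 (A.det⁻¹⁻¹ * (lam ^ (m + 1))⁻¹)
    rw [inv_inv, map_mul, map_mul, map_inv₀, map_inv₀, hlr, hlr]
    have : A.det * (lam ^ (m + 1))⁻¹ * (ρ A.det * (lam ^ (m + 1))⁻¹) *
        (ρ (ρ A.det) * (lam ^ (m + 1))⁻¹) =
        A.det * ρ A.det * ρ (ρ A.det) *
          ((lam ^ (m + 1))⁻¹ * (lam ^ (m + 1))⁻¹ * (lam ^ (m + 1))⁻¹) := by ring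
    rw [this, h5, hm]
    field_simp
    ring

/-- The semilinear map on vectors. -/
def psi (ρ : E ≃+* E) (lam : E) (v : Fin 3 → E) : Fin 3 → E := ![lam * ρ (v 2), ρ (v 0), ρ (v 1)]

theorem psi_zero : psi ρ lam 0 = 0 := by
  funext i
  fin_cases i <;> simp [psi]

/-- A semilinear map with cube `lam`. -/
structure Sem (ρ : E ≃+* E) (lam : E) {M : Type} [AddCommGroup M] [Module E M] (φ : M → M) :
    Prop where
  /-- additive -/
  add : ∀ x y, φ (x + y) = φ x + φ y
  /-- semilinear -/
  smul : ∀ (t : E) x, φ (t • x) = ρ t • φ x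
  /-- the cube -/
  cube : ∀ x, φ (φ (φ x)) = lam • x

variable {M : Type} [AddCommGroup M] [Module E M] {φ : M → M}

/-- A space of dimension three with such a map is irreducible. -/
theorem Cyc.irr (H : Cyc ρ lam) (S : Sem ρ lam φ) {B : Submodule E M}
    (h3 : Module.finrank E B = 3) {B' : Submodule E M} (hle : B' ≤ B)
    (hB' : ∀ x ∈ B', φ x ∈ B') : B' = ⊥ ∨ B' = B := by
  have hf : Module.Finite E B := Module.finite_of_finrank_pos (by omega)
  have hf' : Module.Finite E B' := Submodule.finiteDimensional_of_le hle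
  have h1 : 3 ∣ Module.finrank E B' := by
    refine H.dvd (fun x => ⟨φ x, hB' x x.2⟩) ?_ ?_ ?_
    · intro x y
      exact Subtype.ext (S.add _ _)
    · intro t x
      exact Subtype.ext (S.smul _ _)
    · intro x
      exact Subtype.ext (S.cube _)
  have h2 := Submodule.finrank_mono hle
  rw [h3] at h2
  obtain h4 | h4 : Module.finrank E B' = 0 ∨ Module.finrank E B' = 3 := by omega
  · left
    exact Submodule.finrank_eq_zero.1 h4
  · right
    exact Submodule.eq_of_le_of_finrank_eq hle (by rw [h3, h4])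

theorem Cyc.inj (H : Cyc ρ lam) (S : Sem ρ lam φ) {B : Submodule E M}
    (h3 : Module.finrank E B = 3) (hB : ∀ x ∈ B, φ x ∈ B) {W : Type} [AddCommGroup W]
    [Module E W] (f : M →ₗ[E] W) (hf : ∀ x ∈ B, f x = 0 → f (φ x) = 0) :
    (∀ x ∈ B, f x = 0) ∨ ∀ x ∈ B, f x = 0 → x = 0 := by
  rcases H.irr S h3 (B' := B ⊓ LinearMap.ker f) inf_le_left (fun x hx => ⟨hB x hx.1,
    hf x hx.1 hx.2⟩) with h | h
  · right
    intro x hx h0
    have : x ∈ B ⊓ LinearMap.ker f := ⟨hx, h0⟩
    rw [h] at this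
    exact this
  · left
    intro x hx
    have : x ∈ B ⊓ LinearMap.ker f := by rw [h]; exact hx
    exact this.2

theorem surj_of_inj {B : Submodule E M} (h3 : Module.finrank E B = 3)
    (f : M →ₗ[E] (Fin 3 → E)) (hf : ∀ x ∈ B, f x = 0 → x = 0) (w : Fin 3 → E) :
    ∃ x ∈ B, f x = w := by
  have hfin : Module.Finite E B := Module.finite_of_finrank_pos (by omega)
  have h1 : Function.Injective (f.domRestrict B) := by
    rw [← LinearMap.ker_eq_bot, LinearMap.ker_eq_bot']
    intro x hx
    exact Subtype.ext (hf x x.2 hx)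
  have h2 : Function.Surjective (f.domRestrict B) := by
    rw [← LinearMap.injective_iff_surjective_of_finrank_eq_finrank]
    · exact h1
    · rw [h3, Module.finrank_fin_fun]
  obtain ⟨x, hx⟩ := h2 w
  exact ⟨x, x.2, hx⟩

/-- Two equivariant maps with parallel values are proportional. -/
theorem Cyc.ratio {B : Submodule E M}
    (h3 : Module.finrank E B = 3) (hB : ∀ x ∈ B, φ x ∈ B) {f g : M →ₗ[E] (Fin 3 → E)}
    (hf : ∀ x ∈ B, f x = 0 → x = 0) (hfφ : ∀ x ∈ B, f (φ x) = psi ρ lam (f x))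
    (hgφ : ∀ x ∈ B, g (φ x) = psi ρ lam (g x))
    (hfg : ∀ x ∈ B, ∀ i j, f x i * g x j = f x j * g x i) :
    ∃ κ : E, ρ κ = κ ∧ ∀ x ∈ B, g x = κ • f x := by
  classical
  choose e he hfe using fun i => surj_of_inj h3 f hf (Pi.single i 1)
  have h1 : ∀ i j, j ≠ i → g (e i) j = 0 := by
    intro i j hij
    have := hfg (e i) (he i) i j
    rw [hfe, Pi.single_eq_same, one_mul, Pi.single_eq_of_ne hij, zero_mul] at this
    exact this
  have h2 : ∀ i j, g (e i) i = g (e j) j := by
    intro i j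
    by_cases hij : i = j
    · rw [hij]
    · have := hfg (e i + e j) (B.add_mem (he i) (he j)) i j
      rw [map_add, map_add, Pi.add_apply, Pi.add_apply, Pi.add_apply, Pi.add_apply, hfe, hfe,
        Pi.single_eq_same, Pi.single_eq_same, Pi.single_eq_of_ne hij,
        Pi.single_eq_of_ne (Ne.symm hij), h1 i j (Ne.symm hij), h1 j i hij] at this
      simpa using this.symm
  have h4 : ∀ x ∈ B, g x = g (e 0) 0 • f x := by
    intro x hx
    have h5 : x = ∑ i, f x i • e i := by
      have h6 : x - ∑ i, f x i • e i = 0 := by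
        apply hf _ (B.sub_mem hx (B.sum_mem fun i _ => B.smul_mem _ (he i)))
        rw [map_sub, map_sum]
        funext j
        simp only [map_smul, hfe, Pi.sub_apply, Finset.sum_apply, Pi.smul_apply, smul_eq_mul,
          Pi.single_apply, mul_ite, mul_one, mul_zero, Finset.sum_ite_eq, Finset.mem_univ,
          if_true, sub_self, Pi.zero_apply]
      exact sub_eq_zero.1 h6
    have h6 : g x = ∑ i, f x i • g (e i) := by
      conv_lhs => rw [h5, map_sum]
      exact Finset.sum_congr rfl fun i _ => map_smul _ _ _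
    rw [h6]
    funext j
    rw [Finset.sum_apply, Finset.sum_eq_single j, Pi.smul_apply, Pi.smul_apply, smul_eq_mul,
      smul_eq_mul, h2 0 j, mul_comm]
    · intro i _ hij
      rw [Pi.smul_apply, h1 i j (Ne.symm hij), smul_zero]
    · intro h
      exact absurd (Finset.mem_univ j) h
  refine ⟨g (e 0) 0, ?_, h4⟩
  have h5 := h4 _ (hB _ (he 1))
  rw [hgφ _ (he 1), hfφ _ (he 1), h4 _ (he 1), hfe] at h5
  have h6 := congrFun h5 2
  simp only [psi] at h6
  simpa using h6

end

end Vale.Agent.P011.E6O
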