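import Vale.Agent.P011.E6O.Defs2
import Vale.Agent.P011.E6O.H493.Co
import Vale.Agent.P011.E6O.H493.Semi
import Vale.Agent.P011.E6.Coord
import Vale.Agent.P011.E6.Herm

/-!
Points: transport by the elements of the group and by the changes of coordinates.
-/

open NumberField

namespace Vale.Agent.P011.E6O.H493

open Vale.Agent.P011.MPQ Vale.Agent.P011.D4 Vale.Agent.P011.D4.Oct Vale.Agent.P011.E6 Alb

variable {k E : Type} [Field k] [Field E] [Algebra k E]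
  {ρ σ : E ≃ₐ[k] E} {lam : Eˣ} {g : Fin 3 → Eˣ} {al s : E} {a b c : kˣ}

theorem ph_add (x y : AlbL E a b c) : ph ρ lam (x + y) = ph ρ lam x + ph ρ lam y := by
  apply Alb.ext
  · simp [ph, mul_add]
  · simp [ph, mul_add]
  · simp [ph, mul_add]
  · simp [ph, omap_add, smul_add]
  · simp [ph, omap_add]
  · simp [ph, omap_add]

theorem ph_smul (t : E) (x : AlbL E a b c) : ph ρ lam (t • x) = ρ t • ph ρ lam x := by
  apply Alb.ext
  · simp [ph, mul_left_comm]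
  · simp [ph, mul_left_comm]
  · simp [ph, mul_left_comm]
  · simp only [ph, x3_smul, x1_smul, omap_smul]
    rw [smul_comm]
  · simp [ph, omap_smul]
  · simp [ph, omap_smul]

theorem omap3 (hρ3 : ∀ t : E, ρ (ρ (ρ t)) = t) (x : OctL E a b c) :
    omap ρ (omap ρ (omap ρ x)) = x := by
  apply Oct.ext8 <;> exact hρ3 _

theorem ph3 (hρ3 : ∀ t : E, ρ (ρ (ρ t)) = t) (hl : ρ lam = lam) (x : AlbL E a b c) :
    ph ρ lam (ph ρ lam (ph ρ lam x)) = (lam : E) • x := by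
  have hli : ρ ((lam⁻¹ : Eˣ) : E) = (lam⁻¹ : Eˣ) := by
    rw [Units.val_inv_eq_inv_val, map_inv₀, hl]
  have hm : ∀ t : E, ((lam⁻¹ : Eˣ) : E) * ((lam : E) * t) = t := fun t => by
    rw [← mul_assoc, Units.inv_mul, one_mul]
  have hm' : ∀ t : E, (lam : E) * (((lam⁻¹ : Eˣ) : E) * t) = t := fun t => by
    rw [← mul_assoc, Units.mul_inv, one_mul]
  apply Alb.ext
  · simp only [ph, map_mul, hl, hli, hρ3, d1_smul, hm, hm']
  · simp only [ph, map_mul, hl, hli, hρ3, d2_smul, hm, hm']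
  · simp only [ph, map_mul, hl, hli, hρ3, d3_smul, hm, hm']
  · simp only [ph, omap_smul, hl, omap3 hρ3, x1_smul]
  · simp only [ph, omap_smul, hl, omap3 hρ3, x2_smul]
  · simp only [ph, omap_smul, hl, omap3 hρ3, x3_smul]

theorem hsem (H : Hyp ρ σ lam g al s a b c) :
    Sem (ρ : E ≃+* E) (lam : E) (ph ρ lam : AlbL E a b c → AlbL E a b c) :=
  ⟨ph_add, ph_smul, ph3 H.ρ3 H.ρlam⟩

theorem hcyc (H : Hyp ρ σ lam g al s a b c) : Cyc (ρ : E ≃+* E) (lam : E) :=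
  ⟨H.ρ3, H.ρlam, lam.ne_zero, H.hlam⟩

/-- The maps which preserve the cubic norm preserve the elements with zero adjoint. -/
theorem adj_map [CharZero E] {a' b' c' : kˣ} {φ : AlbL E a b c ≃ₗ[E] AlbL E a' b' c'}
    (h : ∀ x, cub (φ x) = cub x) {x : AlbL E a b c} (hx : adj x = 0) : adj (φ x) = 0 := by
  apply eq_zero_of_tf
  intro z
  obtain ⟨z, rfl⟩ := φ.surjective z
  have h1 : tf (adj (φ x)) (φ z) = 1 * tf (adj x) z :=
    tf_adj_of_cub (φ := φ.toLinearMap) (μ := 1) (fun y => by rw [one_mul]; exact h y) x z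
  rw [h1, hx, tf_zero_left, mul_zero]

theorem isPt_map' [CharZero E] {a' b' c' : kˣ} {φ : AlbL E a b c ≃ₗ[E] AlbL E a' b' c'}
    (h : ∀ x, cub (φ x) = cub x) (hφ : ∀ x, φ (ph ρ lam x) = ph ρ lam (φ x))
    {A : Submodule E (AlbL E a b c)} (hA : IsPt ρ lam A) :
    IsPt ρ lam (A.map (φ : AlbL E a b c →ₗ[E] AlbL E a' b' c')) := by
  refine ⟨?_, ?_, ?_⟩
  · rw [← hA.dim]
    exact LinearEquiv.finrank_map_eq φ A
  · rintro _ ⟨x, hx, rfl⟩
    exact ⟨ph ρ lam x, hA.ph x hx, hφ x⟩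
  · rintro _ ⟨x, hx, rfl⟩
    exact adj_map h (hA.adj x hx)

theorem isPt_map [CharZero E] {φ : AlbL E a b c ≃ₗ[E] AlbL E a b c}
    (hφ : φ ∈ GO ρ σ lam g a b c) {A : Submodule E (AlbL E a b c)} (hA : IsPt ρ lam A) :
    IsPt ρ lam (A.map (φ : AlbL E a b c →ₗ[E] AlbL E a b c)) :=
  isPt_map' hφ.1 hφ.2.1 hA

section trip

variable {a' b' c' : kˣ} {i j l : Oct a b c} [NeZero (2 : E)]

theorem tripA_cub (ht : Trip a' b' c' i j l) (x : AlbL E a' b' c') :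
    cub (tripA E ht x) = cub x :=
  Alb.cub_mapE (tripO_mul ht) x

theorem tripA_ph (ht : Trip a' b' c' i j l) (x : AlbL E a' b' c') :
    tripA E ht (ph ρ lam x) = ph ρ lam (tripA E ht x) := by
  simp only [tripA, Alb.mapE_apply, Alb.omapA, ph, tripO_omap, map_smul]

theorem tripA_her (ht : Trip a' b' c' i j l) (x y : AlbL E a' b' c') :
    her σ g (tripA E ht x) (tripA E ht y) = her σ g x y := by
  have h1 : amap σ (tripA E ht y) = tripA E ht (amap σ y) := by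
    simp only [tripA, Alb.mapE_apply, Alb.omapA, amap, tripO_omap]
  rw [her, her, h1]
  change Alb.tf (Alb.wt g (Alb.mapE (tripO E ht) x)) (Alb.mapE (tripO E ht) (amap σ y)) = _
  rw [Alb.wt_mapE, Alb.tf_mapE (tripO_mul ht)]

theorem isPt_trip [CharZero E] (ht : Trip a' b' c' i j l) {A : Submodule E (AlbL E a b c)}
    (hA : IsPt ρ lam A) :
    IsPt ρ lam (A.map ((tripA E ht).symm : AlbL E a b c →ₗ[E] AlbL E a' b' c')) := by
  refine isPt_map' (fun x => ?_) (fun x => ?_) hA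
  · rw [← tripA_cub ht, LinearEquiv.apply_symm_apply]
  · apply (tripA E ht).injective
    rw [tripA_ph, LinearEquiv.apply_symm_apply, LinearEquiv.apply_symm_apply]

end trip

theorem emb_gi {a' b' c' : kˣ} (x y : E) (j l : OctL E a b c) :
    emb (gi : OctL E a b c) j l (⟨⟨x, y, 0, 0⟩, 0⟩ : OctL E a' b' c') =
      ⟨⟨x, y, 0, 0⟩, 0⟩ := by
  have h1 : emb (gi : OctL E a b c) j l (⟨⟨x, y, 0, 0⟩, 0⟩ : OctL E a' b' c') =
    x • (1 : OctL E a b c) + y • gi := by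
    simp [emb, qemb]
  rw [h1]
  apply Oct.ext8 <;> simp [gi]
  all_goals (change y * _ = _; simp)

theorem mem_Apt {x : OctL E a b c} {y : AlbL E a b c} :
    y ∈ Apt x ↔ ∃ r : Fin 3 → E, y = ⟨0, 0, 0, r 0 • x, r 1 • x, r 2 • x⟩ := Iff.rfl

theorem mem_Iln {e : Qt (up E a) (up E b)} {y : AlbL E a b c} :
    y ∈ Iln c e ↔ ∃ q : Fin 3 → Qt (up E a) (up E b),
      y = ⟨0, 0, 0, ⟨0, e * q 0⟩, ⟨0, e * q 1⟩, ⟨0, e * q 2⟩⟩ := Iff.rfl

section trip2

variable {b' c' : kˣ} {j l : Oct a b c} [CharZero k] [CharZero E]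

theorem Apt_trip (ht : Trip a b' c' gi j l) (x : OctL E a b' c') :
    (Apt x).map (tripA E ht : AlbL E a b' c' →ₗ[E] AlbL E a b c) = Apt (tripO E ht x) := by
  have h1 : ∀ r : Fin 3 → E, tripA E ht ⟨0, 0, 0, r 0 • x, r 1 • x, r 2 • x⟩ =
      ⟨0, 0, 0, r 0 • tripO E ht x, r 1 • tripO E ht x, r 2 • tripO E ht x⟩ := by
    intro r
    simp only [tripA, Alb.mapE_apply, Alb.omapA, map_smul]
  ext y
  constructor
  · rintro ⟨_, ⟨r, rfl⟩, rfl⟩
    exact ⟨r, h1 r⟩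
  · rintro ⟨r, rfl⟩
    exact ⟨_, ⟨r, rfl⟩, h1 r⟩

theorem Pw_trip (ht : Trip a b' c' gi j l) (w : Oct a b' c') :
    (Pw al w).map (tripA E ht : AlbL E a b' c' →ₗ[E] AlbL E a b c) = Pw al (emb gi j l w) := by
  rw [Pw, Apt_trip, tripO_mul, tripO_oup, tripO_apply, oup_gi]
  unfold ep
  rw [emb_gi]
  rfl

theorem Pm_trip (ht : Trip a b' c' gi j l) (w : Oct a b' c') :
    (Pm al w).map (tripA E ht : AlbL E a b' c' →ₗ[E] AlbL E a b c) = Pm al (emb gi j l w) := by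
  rw [Pm, Apt_trip, tripO_mul, tripO_oup, tripO_apply, oup_gi]
  unfold em
  rw [emb_gi]
  rfl

theorem emb_gi' : emb (gi : Oct a b c) j l (gi : Oct a b' c') = gi := by
  simp [emb, qemb, gi]

theorem emb_gl' : emb (gi : Oct a b c) j l (gl : Oct a b' c') = l := by
  simp [emb, qemb, gl]

theorem perp_trip (ht : Trip a b' c' gi j l) {w : Oct a b' c'} (hw : Perp w) :
    Perp (emb gi j l w) := by
  obtain ⟨Φ, h1, h2, h3, h4⟩ := exists_emb ht
  refine ⟨?_, ?_, ?_⟩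
  · rw [← h1]
    intro h
    exact hw.ne (Φ.injective (h.trans (map_zero Φ).symm))
  · rw [← h1, ← h3, hw.tr, map_neg]
  · have e1 : bil (Φ gi) (Φ w) = bil gi w := by
      rw [bil, bil, ← map_add, h4, h4, h4]
    rw [h1, h1, emb_gi', bil_eq_dot, bil_eq_dot, hw.i, mul_zero] at e1
    exact (mul_eq_zero.1 e1).resolve_left two_ne_zero

end trip2

section std

variable [CharZero E]

theorem al_ne (hal : al ^ 2 = algebraMap k E a) : al ≠ 0 := by
  have hal' : al ^ 2 = ((up E a : Eˣ) : E) := hal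
  rintro rfl
  exact (up E a).ne_zero (by rw [← hal']; ring)

theorem co_ep (hal : al ^ 2 = algebraMap k E a) :
    ca al (ep al : Qt (up E a) (up E b)) = 1 ∧ cb al (ep al : Qt (up E a) (up E b)) = 0 ∧
      cg al (ep al : Qt (up E a) (up E b)) = 0 ∧ cd al (ep al : Qt (up E a) (up E b)) = 0 := by
  have ha := al_ne hal
  refine ⟨?_, ?_, ?_, ?_⟩ <;> simp only [ca, cb, cg, cd, ep] <;> field_simp <;> ring

theorem co_em (hal : al ^ 2 = algebraMap k E a) :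
    ca al (em al : Qt (up E a) (up E b)) = 0 ∧ cb al (em al : Qt (up E a) (up E b)) = 1 ∧
      cg al (em al : Qt (up E a) (up E b)) = 0 ∧ cd al (em al : Qt (up E a) (up E b)) = 0 := by
  have ha := al_ne hal
  refine ⟨?_, ?_, ?_, ?_⟩ <;> simp only [ca, cb, cg, cd, em] <;> field_simp <;> ring

/-- The elements of the line, in coordinates. -/
theorem mem_Iln_ep (hal : al ^ 2 = algebraMap k E a) {y : AlbL E a b c} :
    y ∈ Iln c (ep al) ↔ (y.d1 = 0 ∧ y.d2 = 0 ∧ y.d3 = 0) ∧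
      (y.x1.fst = 0 ∧ y.x2.fst = 0 ∧ y.x3.fst = 0) ∧
      (cb al y.x1.snd = 0 ∧ cb al y.x2.snd = 0 ∧ cb al y.x3.snd = 0) ∧
      (cd al y.x1.snd = 0 ∧ cd al y.x2.snd = 0 ∧ cd al y.x3.snd = 0) := by
  have hal' : al ^ 2 = ((up E a : Eˣ) : E) := hal
  obtain ⟨e1, e2, e3, e4⟩ := co_ep (b := b) hal
  constructor
  · rintro ⟨q, rfl⟩
    simp [cb_mul hal', cd_mul hal', e2, e4]
  · rintro ⟨⟨h1, h2, h3⟩, ⟨h4, h5, h6⟩, ⟨h7, h8, h9⟩, ⟨h10, h11, h12⟩⟩
    refine ⟨![y.x1.snd, y.x2.snd, y.x3.snd], ?_⟩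
    have key : ∀ q : Qt (up E a) (up E b), cb al q = 0 → cd al q = 0 → q = ep al * q := by
      intro q hq1 hq2
      apply ext_co two_ne_zero hal' <;>
        simp [ca_mul hal', cb_mul hal', cg_mul hal', cd_mul hal', e1, e2, e3, e4, hq1, hq2]
    apply Alb.ext
    · exact h1
    · exact h2
    · exact h3
    · exact Oct.ext h4 (key _ h7 h10)
    · exact Oct.ext h5 (key _ h8 h11)
    · exact Oct.ext h6 (key _ h9 h12)

/-- The elements of the opposite line, in coordinates. -/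
theorem mem_Iln_em (hal : al ^ 2 = algebraMap k E a) {y : AlbL E a b c} :
    y ∈ Iln c (em al) ↔ (y.d1 = 0 ∧ y.d2 = 0 ∧ y.d3 = 0) ∧
      (y.x1.fst = 0 ∧ y.x2.fst = 0 ∧ y.x3.fst = 0) ∧
      (ca al y.x1.snd = 0 ∧ ca al y.x2.snd = 0 ∧ ca al y.x3.snd = 0) ∧
      (cg al y.x1.snd = 0 ∧ cg al y.x2.snd = 0 ∧ cg al y.x3.snd = 0) := by
  have hal' : al ^ 2 = ((up E a : Eˣ) : E) := hal
  obtain ⟨e1, e2, e3, e4⟩ := co_em (b := b) hal
  constructor
  · rintro ⟨q, rfl⟩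
    simp [ca_mul hal', cg_mul hal', e1, e3]
  · rintro ⟨⟨h1, h2, h3⟩, ⟨h4, h5, h6⟩, ⟨h7, h8, h9⟩, ⟨h10, h11, h12⟩⟩
    refine ⟨![y.x1.snd, y.x2.snd, y.x3.snd], ?_⟩
    have key : ∀ q : Qt (up E a) (up E b), ca al q = 0 → cg al q = 0 → q = em al * q := by
      intro q hq1 hq2
      apply ext_co two_ne_zero hal' <;>
        simp [ca_mul hal', cb_mul hal', cg_mul hal', cd_mul hal', e1, e2, e3, e4, hq1, hq2]
    apply Alb.ext
    · exact h1
    · exact h2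
    · exact h3
    · exact Oct.ext h4 (key _ h7 h10)
    · exact Oct.ext h5 (key _ h8 h11)
    · exact Oct.ext h6 (key _ h9 h12)

end std

end Vale.Agent.P011.E6O.H493
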