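import Vale.Agent.P011.E6O.Defs
import Mathlib.FieldTheory.Galois.Basic

/-!
The elements fixed by `ρ`.
-/

open NumberField

namespace Vale.Agent.P011.E6O

open Vale.Agent.P011.MPQ Vale.Agent.P011.D4 Vale.Agent.P011.E6

variable {k E : Type} [Field k] [Field E] [Algebra k E]
  {ρ σ : E ≃ₐ[k] E} {lam : Eˣ} {g : Fin 3 → Eˣ} {al s : E} {a b c : kˣ}

/-- The elements fixed by `ρ` and `σ` are in the ground field. -/
theorem Hyp.fix_both (H : Hyp ρ σ lam g al s a b c) {f : E} (h1 : ρ f = f) (h2 : σ f = f) :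
    ∃ t : k, algebraMap k E t = f := by
  classical
  have hfin : FiniteDimensional k E := Module.finite_of_finrank_pos (by rw [H.h6]; omega)
  set τ : E ≃ₐ[k] E := ρ * σ with hτ
  have hcomm : Commute ρ σ := AlgEquiv.ext fun x => H.comm x
  have e3 : ρ ^ 3 = 1 := AlgEquiv.ext fun x => H.ρ3 x
  have e2 : σ ^ 2 = 1 := AlgEquiv.ext fun x => H.σ2 x
  have hord : orderOf τ = 6 := by
    apply orderOf_eq_of_pow_and_pow_div_prime (by norm_num)
    · rw [hτ, hcomm.mul_pow]
      have a1 : ρ ^ 6 = 1 := by rw [show (6 : ℕ) = 3 * 2 from rfl, pow_mul, e3, one_pow]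
      have a2 : σ ^ 6 = 1 := by rw [show (6 : ℕ) = 2 * 3 from rfl, pow_mul, e2, one_pow]
      rw [a1, a2, mul_one]
    · intro p hp hd
      have hp' : p = 2 ∨ p = 3 := by
        have h6 : (6 : ℕ) = 2 * 3 := rfl
        rw [h6, hp.dvd_mul, Nat.prime_dvd_prime_iff_eq hp Nat.prime_two,
          Nat.prime_dvd_prime_iff_eq hp Nat.prime_three] at hd
        exact hd
      rcases hp' with rfl | rfl
      · intro h
        change τ ^ 3 = 1 at h
        rw [hτ, hcomm.mul_pow, e3, one_mul, pow_succ, e2, one_mul] at h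
        exact H.hσ h
      · intro h
        change τ ^ 2 = 1 at h
        rw [hτ, hcomm.mul_pow, e2, mul_one] at h
        apply H.hρ
        have : ρ ^ 3 = ρ := by rw [pow_succ, h, one_mul]
        rw [← this, e3]
  have hcard : Nat.card (Subgroup.zpowers τ) = 6 := by
    rw [Nat.card_zpowers, hord]
  have h3 : Module.finrank (IntermediateField.fixedField (Subgroup.zpowers τ)) E = 6 := by
    rw [IntermediateField.finrank_fixedField_eq_card, hcard]
  have h4 := Module.finrank_mul_finrank k (IntermediateField.fixedField (Subgroup.zpowers τ)) E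
  rw [h3, H.h6] at h4
  have h5 : Module.finrank k (IntermediateField.fixedField (Subgroup.zpowers τ)) = 1 := by omega
  have h6 : IntermediateField.fixedField (Subgroup.zpowers τ) = ⊥ :=
    IntermediateField.finrank_eq_one_iff.1 h5
  have h7 : f ∈ IntermediateField.fixedField (Subgroup.zpowers τ) := by
    rw [IntermediateField.mem_fixedField_iff]
    intro x hx
    have hx' : x ∈ MulAction.stabilizer (E ≃ₐ[k] E) f := by
      refine (Subgroup.zpowers_le.2 ?_) hx
      rw [MulAction.mem_stabilizer_iff]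
      change ρ (σ f) = f
      rw [h2, h1]
    exact hx'
  rw [h6] at h7
  exact IntermediateField.mem_bot.1 h7

/-- The elements fixed by `ρ`. -/
theorem Hyp.fix_rho (H : Hyp ρ σ lam g al s a b c) [CharZero E] {f : E} (h1 : ρ f = f) :
    ∃ u0 u1 : k, f = algebraMap k E u0 + al * algebraMap k E u1 := by
  have hal' : al ^ 2 = ((up E a : Eˣ) : E) := H.al2
  have ha : al ≠ 0 := by
    rintro h
    exact (up E a).ne_zero (by rw [← hal', h]; ring)
  obtain ⟨u0, hu0⟩ := H.fix_both (f := (f + σ f) / 2)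
    (by rw [map_div₀, map_add, H.comm, h1, map_ofNat])
    (by rw [map_div₀, map_add, H.σ2, map_ofNat, add_comm])
  obtain ⟨u1, hu1⟩ := H.fix_both (f := (f - σ f) / (2 * al))
    (by rw [map_div₀, map_sub, H.comm, h1, map_mul, H.ρal, map_ofNat])
    (by
      rw [map_div₀, map_sub, H.σ2, map_mul, H.σal, map_ofNat]
      field_simp
      ring)
  refine ⟨u0, u1, ?_⟩
  rw [hu0, hu1]
  field_simp
  ring

end Vale.Agent.P011.E6O
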