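import Vale.Agent.P011.E6O.H493.Pt
import Vale.Agent.P011.E6.Ids2

/-!
The hermitian form and the semilinear map.
-/

open NumberField

namespace Vale.Agent.P011.E6O.H493

open Vale.Agent.P011.MPQ Vale.Agent.P011.D4 Vale.Agent.P011.D4.Oct Vale.Agent.P011.E6 Alb

variable {k E : Type} [Field k] [Field E] [Algebra k E]
  {ρ σ : E ≃ₐ[k] E} {lam : Eˣ} {g : Fin 3 → Eˣ} {al s : E} {a b c : kˣ}

theorem norm_om (τ : E ≃ₐ[k] E) (x : OctL E a b c) : Oct.norm (omap τ x) = τ (Oct.norm x) := by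
  have ha : τ ((up E a : Eˣ) : E) = ((up E a : Eˣ) : E) := τ.commutes _
  have hb : τ ((up E b : Eˣ) : E) = ((up E b : Eˣ) : E) := τ.commutes _
  have hc : τ ((up E c : Eˣ) : E) = ((up E c : Eˣ) : E) := τ.commutes _
  simp only [Oct.norm, nrd, omap, qmap, map_sub, map_add, map_mul, map_pow, ha, hb, hc]

theorem bil_om (τ : E ≃ₐ[k] E) (x y : OctL E a b c) :
    bil (omap τ x) (omap τ y) = τ (bil x y) := by
  rw [bil, bil, ← omap_add, norm_om, norm_om, norm_om, map_sub, map_sub]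

theorem her_add_left (x y z : AlbL E a b c) : her σ g (x + y) z = her σ g x z + her σ g y z := by
  rw [her, her, her, wt_add, tf_add_left]

theorem her_smul_left (t : E) (x z : AlbL E a b c) : her σ g (t • x) z = t * her σ g x z := by
  rw [her, her, wt_smul, tf_smul_left]

theorem om_comm (hc : ∀ x, ρ (σ x) = σ (ρ x)) (x : OctL E a b c) :
    omap σ (omap ρ x) = omap ρ (omap σ x) := by
  apply Oct.ext8 <;> exact (hc _).symm

theorem om_smul (τ : E ≃ₐ[k] E) (t : E) (x : OctL E a b c) :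
    omap τ (t • x) = τ t • omap τ x := omap_smul _ _ _

theorem her_ph (H : Hyp ρ σ lam g al s a b c) (x y : AlbL E a b c) :
    her σ g (ph ρ lam x) (ph ρ lam y) = (lam * σ lam * s ^ 2) * ρ (her σ g x y) := by
  have hl : ρ (lam : E) = lam := H.ρlam
  have hl0 : (lam : E) ≠ 0 := lam.ne_zero
  have hli : ((lam⁻¹ : Eˣ) : E) = (lam : E)⁻¹ := Units.val_inv_eq_inv_val _
  have hs0 : σ (lam : E) ≠ 0 := by rw [map_ne_zero]; exact hl0
  have g0 := H.g0
  have g1 := H.g1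
  have g2 := H.g2
  have e1 : ((g 1 : Eˣ) : E) * g 2 * ((lam : E) * σ lam) =
      (lam * σ lam * s ^ 2) * ρ (((g 0 : Eˣ) : E) * g 1) := by
    rw [map_mul, g2, g1]; ring
  have e2 : ((g 2 : Eˣ) : E) * g 0 = (lam * σ lam * s ^ 2) * ρ (((g 1 : Eˣ) : E) * g 2) := by
    rw [map_mul, g0, H.g2]; ring
  have e3 : ((g 0 : Eˣ) : E) * g 1 = (lam * σ lam * s ^ 2) * ρ (((g 2 : Eˣ) : E) * g 0) := by
    rw [map_mul, H.g0, H.g1, H.g0]
    ring
  have f1 : ((g 0 : Eˣ) : E) ^ 2 * ((lam : E)⁻¹ * σ (lam : E)⁻¹) =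
      (lam * σ lam * s ^ 2) * ρ (((g 2 : Eˣ) : E) ^ 2) := by
    rw [g0, map_pow, map_inv₀]
    field_simp
  have f2 : ((g 1 : Eˣ) : E) ^ 2 * ((lam : E) * σ lam) =
      (lam * σ lam * s ^ 2) * ρ (((g 0 : Eˣ) : E) ^ 2) := by
    rw [g1, map_pow]; ring
  have f3 : ((g 2 : Eˣ) : E) ^ 2 * ((lam : E) * σ lam) =
      (lam * σ lam * s ^ 2) * ρ (((g 1 : Eˣ) : E) ^ 2) := by
    rw [g2, map_pow]; ring
  have hc := H.comm
  have hb : ∀ u v : OctL E a b c, bil (omap ρ u) (omap σ (omap ρ v)) = ρ (bil u (omap σ v)) := by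
    intro u v
    rw [om_comm hc, bil_om]
  simp only [her, tf, wt, amap, ph, om_smul, bil_smul_left, bil_smul_right, hb, map_add, map_mul,
    hli, ← hc] at e1 e2 e3 f1 f2 f3 ⊢
  linear_combination (ρ x.d3 * ρ (σ y.d3)) * f1 + (ρ x.d1 * ρ (σ y.d1)) * f2 +
    (ρ x.d2 * ρ (σ y.d2)) * f3 + ρ (bil x.x3 (omap σ y.x3)) * e1 +
    ρ (bil x.x1 (omap σ y.x1)) * e2 + ρ (bil x.x2 (omap σ y.x2)) * e3

end Vale.Agent.P011.E6O.H493
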