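import Vale.Agent.P011.E6O.H370.T
import Vale.Agent.P011.E6O.H69.Trip
import Vale.Agent.P011.E6O.H493.Orth
import Vale.Agent.P011.E6O.H342.TitsB
import Vale.Agent.P011.E6O.H342.Frame

/-!
The slides.
-/

open NumberField

namespace Vale.Agent.P011.E6O.H493

open Vale.Agent.P011.MPQ Vale.Agent.P011.D4 Vale.Agent.P011.D4.Oct Vale.Agent.P011.E6 Alb

section gen

variable {k E : Type} [Field k] [Field E] [Algebra k E]
  {ρ σ : E ≃ₐ[k] E} {lam : Eˣ} {g : Fin 3 → Eˣ} {al s : E} {a b c : kˣ}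

variable (ρ σ lam g al) in
/-- An element of the residual moves the space to a standard point. -/
def Good (B : Submodule E (AlbL E a b c)) : Prop :=
  ∃ n ∈ Res ρ σ lam g a b c, ∃ w : Oct a b c, Perp w ∧
    B.map (n : AlbL E a b c →ₗ[E] AlbL E a b c) = Pw al w

theorem map_mul' {n m : AlbL E a b c ≃ₗ[E] AlbL E a b c} (B : Submodule E (AlbL E a b c)) :
    B.map ((n * m : AlbL E a b c ≃ₗ[E] AlbL E a b c) : AlbL E a b c →ₗ[E] AlbL E a b c) =
      (B.map (m : AlbL E a b c →ₗ[E] AlbL E a b c)).map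
        (n : AlbL E a b c →ₗ[E] AlbL E a b c) := by
  rw [← Submodule.map_comp]
  rfl

theorem good_of_map {n : AlbL E a b c ≃ₗ[E] AlbL E a b c} (hn : n ∈ Res ρ σ lam g a b c)
    {B : Submodule E (AlbL E a b c)}
    (h : Good ρ σ lam g al (B.map (n : AlbL E a b c →ₗ[E] AlbL E a b c))) :
    Good ρ σ lam g al B := by
  obtain ⟨m, hm, w, hw, h1⟩ := h
  exact ⟨m * n, mul_mem hm hn, w, hw, by rw [map_mul', h1]⟩

variable [NumberField k] [NumberField E]

/-- Transport of `Good` along a change of coordinates. -/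
theorem good_trip (H : Hyp ρ σ lam g al s a b c) {b' c' : kˣ} {j l : Oct a b c} (ht : Trip a b' c' gi j l)
    {B : Submodule E (AlbL E a b c)}
    (h : Good ρ σ lam g al (B.map ((tripA E ht).symm : AlbL E a b c →ₗ[E] AlbL E a b' c'))) :
    Good ρ σ lam g al B := by
  obtain ⟨m, hm, w, hw, h1⟩ := h
  have h2 := (Vale.Agent.P011.E6O.trip_Res H ht (Ψ := tripA E ht) (tripA_apply ht) (φ := m)).2.1 hm
  refine ⟨_, h2, _, perp_trip ht hw, ?_⟩
  rw [← Pw_trip ht w, ← h1, ← Submodule.map_comp, ← Submodule.map_comp]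
  rfl

theorem yI_mem (r : Fin 3 → E) : (Sl.yI al 1 0 r 0 : AlbL E a b c) ∈ Pw al (gl : Oct a b c) := by
  refine ⟨r, ?_⟩
  rw [ep_mul_gl]
  have h1 : ∀ t : E, mkq (up E a) (up E b) al t 0 (1 * 0) 0 = t • ep al := by
    intro t
    apply QuaternionAlgebra.ext
    · rw [QuaternionAlgebra.re_smul]; simp only [mkq, ep, smul_eq_mul]; ring
    · rw [QuaternionAlgebra.imI_smul]; simp only [mkq, ep, smul_eq_mul]; ring
    · rw [QuaternionAlgebra.imJ_smul]; simp only [mkq, ep, smul_eq_mul]; ring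
    · rw [QuaternionAlgebra.imK_smul]; simp only [mkq, ep, smul_eq_mul]; ring
  have h2 : mkq (up E a) (up E b) al 0 0 0 (0 * 0) = 0 := by
    apply QuaternionAlgebra.ext <;> simp [mkq]
  apply Alb.ext
  · rfl
  · rfl
  · rfl
  all_goals
    apply Oct.ext
    · simp only [Sl.yI, Pi.zero_apply, h2, fst_smul, smul_zero]
    · simp only [Sl.yI, Pi.zero_apply, h1, snd_smul]

/-- (C) The neighbours of the first standard point. -/
theorem good_adj0 (H : Hyp ρ σ lam g al s a b c) {B : Submodule E (AlbL E a b c)}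
    (hB : IsPt ρ lam B)
    (h : ∀ x ∈ B, ∀ y ∈ Pw al (gl : Oct a b c), adj (x + y) = 0) : Good ρ σ lam g al B := by
  obtain ⟨f1, f2, h1, h2, h0, hx⟩ := Sl.slideC H two_ne_zero hB
    (fun x hx r => h x hx _ (yI_mem r))
  obtain ⟨b', j', ht, hle⟩ := Sl.frame H h1 h2 h0 hx
  apply good_trip H ht
  exact Vale.Agent.P011.E6O.T (Hyp.trip H ht) (isPt_trip ht hB) hle

/-- The neighbours of a standard point. -/
theorem good_adj1 (H : Hyp ρ σ lam g al s a b c) {B : Submodule E (AlbL E a b c)}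
    (hB : IsPt ρ lam B) {w : Oct a b c} (hw : Perp w)
    (h : ∀ x ∈ B, ∀ y ∈ Pw al w, adj (x + y) = 0) : Good ρ σ lam g al B := by
  obtain ⟨b', c', j, ht⟩ := Vale.Agent.P011.E6O.exists_trip H hw
  apply good_trip H ht
  apply good_adj0 (Hyp.trip H ht) (isPt_trip ht hB)
  rintro _ ⟨x, hx, rfl⟩ y hy
  have h1 : tripA E ht y ∈ Pw al w := by
    have h2 : tripA E ht y ∈ (Pw al (gl : Oct a b' c')).map
        (tripA E ht : AlbL E a b' c' →ₗ[E] AlbL E a b c) := ⟨y, hy, rfl⟩
    rwa [Pw_trip ht, emb_gl'] at h2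
  have h2 := h x hx _ h1
  have h3 : adj ((tripA E ht).symm (x + tripA E ht y)) = 0 := by
    refine adj_map (fun z => ?_) h2
    rw [← tripA_cub ht, LinearEquiv.apply_symm_apply]
  rw [map_add, LinearEquiv.symm_apply_apply] at h3
  exact h3

theorem res_le : Res ρ σ lam g a b c ≤ GO ρ σ lam g a b c := by
  rintro _ ⟨x, -, rfl⟩
  exact x.2

/-- The neighbours of a good point. -/
theorem good_adj (H : Hyp ρ σ lam g al s a b c) {B A : Submodule E (AlbL E a b c)}
    (hB : IsPt ρ lam B) (hA : Good ρ σ lam g al A)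
    (h : ∀ x ∈ B, ∀ y ∈ A, adj (x + y) = 0) : Good ρ σ lam g al B := by
  obtain ⟨n, hn, w, hw, h1⟩ := hA
  apply good_of_map hn
  apply good_adj1 H (isPt_map (res_le hn) hB) hw
  rintro _ ⟨x, hx, rfl⟩ y hy
  rw [← h1] at hy
  obtain ⟨y, hy, rfl⟩ := hy
  change adj (n x + n y) = 0
  rw [← map_add]
  exact adj_map (res_le hn).1 (h x hx y hy)

/-- (B) The points which are not opposite to the first standard point. -/
theorem good_cb (H : Hyp ρ σ lam g al s a b c) {B : Submodule E (AlbL E a b c)}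
    (hB : IsPt ρ lam B)
    (h : ∀ x ∈ B, cb al x.x1.snd = 0 ∧ cb al x.x2.snd = 0 ∧ cb al x.x3.snd = 0) :
    Good ρ σ lam g al B := by
  obtain ⟨f1, f2, h1, h2, h0, A, hA, hAy, hadj⟩ := Sl.slideB H two_ne_zero hB h
  refine good_adj H hB ?_ (fun x hx y hy => hadj y hy x hx)
  obtain ⟨b', j', ht, hle⟩ := Sl.frame H h1 h2 h0 hAy
  apply good_trip H ht
  exact Vale.Agent.P011.E6O.T (Hyp.trip H ht) (isPt_trip ht hA) hle

/-- Every point is good. -/
theorem good_all (H : Hyp ρ σ lam g al s a b c) {B : Submodule E (AlbL E a b c)}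
    (hB : IsPt ρ lam B) : Good ρ σ lam g al B := by
  obtain ⟨A, hA, hle, horth⟩ := exists_orth H hB
  obtain ⟨n, hn, w, hw, h1⟩ := Vale.Agent.P011.E6O.Tm H hA hle
  apply good_of_map hn
  obtain ⟨b', c', j, ht⟩ := Vale.Agent.P011.E6O.exists_trip H hw
  apply good_trip H ht
  apply good_cb (Hyp.trip H ht) (isPt_trip ht (isPt_map (res_le hn) hB))
  rintro _ ⟨_, ⟨x, hx, rfl⟩, rfl⟩
  apply cb_of_her (Hyp.trip H ht)
  intro y hy
  have h2 : tripA E ht y ∈ Pm al w := by
    have h3 : tripA E ht y ∈ (Pm al (gl : Oct a b' c')).map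
        (tripA E ht : AlbL E a b' c' →ₗ[E] AlbL E a b c) := ⟨y, hy, rfl⟩
    rwa [Pm_trip ht, emb_gl'] at h3
  rw [← h1] at h2
  obtain ⟨z, hz, hzy⟩ := h2
  change her σ g y ((tripA E ht).symm (n x)) = 0
  rw [← tripA_her ht, LinearEquiv.apply_symm_apply, ← hzy]
  change her σ g (n z) (n x) = 0
  rw [(res_le hn).2.2]
  exact horth z hz x hx

/-- The first standard point. -/
theorem isPt_std (H : Hyp ρ σ lam g al s a b c) : IsPt ρ lam (Pw al (gl : Oct a b c)) := by
  have hal' : al ^ 2 = ((up E a : Eˣ) : E) := H.al2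
  obtain ⟨e1, e2, e3, e4⟩ := co_ep (b := b) H.al2
  have hne : (⟨0, ep al⟩ : OctL E a b c) ≠ 0 := by
    intro h
    have h1 := congrArg (fun z => ca al z.snd) h
    simp only [e1, snd_zero, ca_zero] at h1
    exact one_ne_zero h1
  refine ⟨?_, ?_, ?_⟩
  · let f : (Fin 3 → E) →ₗ[E] AlbL E a b c :=
      { toFun := fun r => ⟨0, 0, 0, r 0 • ⟨0, ep al⟩, r 1 • ⟨0, ep al⟩, r 2 • ⟨0, ep al⟩⟩
        map_add' := fun r t => by apply Alb.ext <;> simp [add_smul]
        map_smul' := fun t r => by apply Alb.ext <;> simp [mul_smul] }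
    have hf : ∀ r, f r = ⟨0, 0, 0, r 0 • ⟨0, ep al⟩, r 1 • ⟨0, ep al⟩, r 2 • ⟨0, ep al⟩⟩ :=
      fun r => rfl
    have h1 : Pw al (gl : Oct a b c) = LinearMap.range f := by
      ext y
      constructor
      · rintro ⟨r, rfl⟩
        exact ⟨r, by rw [ep_mul_gl, hf]⟩
      · rintro ⟨r, rfl⟩
        exact ⟨r, by rw [ep_mul_gl, hf]⟩
    rw [h1, LinearMap.finrank_range_of_inj, Module.finrank_fin_fun]
    rw [← LinearMap.ker_eq_bot, LinearMap.ker_eq_bot']
    intro r hr
    rw [hf] at hr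
    have k1 := congrArg Alb.x1 hr
    have k2 := congrArg Alb.x2 hr
    have k3 := congrArg Alb.x3 hr
    funext i
    fin_cases i
    · exact (smul_eq_zero.1 k1).resolve_right hne
    · exact (smul_eq_zero.1 k2).resolve_right hne
    · exact (smul_eq_zero.1 k3).resolve_right hne
  · rintro _ ⟨r, rfl⟩
    have h0 : qmap ρ (ep al : Qt (up E a) (up E b)) = ep al := by
      apply QuaternionAlgebra.ext
      · change ρ (1 / 2) = 1 / 2
        rw [map_div₀, map_one, map_ofNat]
      · change ρ (1 / (2 * al)) = 1 / (2 * al)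
        rw [map_div₀, map_one, map_mul, map_ofNat, H.ρal]
      · exact map_zero ρ
      · exact map_zero ρ
    have h1 : omap ρ (⟨0, ep al⟩ : OctL E a b c) = ⟨0, ep al⟩ := by
      apply Oct.ext
      · exact qmap_zero ρ
      · exact h0
    refine ⟨![(lam : E) * ρ (r 2), ρ (r 0), ρ (r 1)], ?_⟩
    rw [ep_mul_gl]
    apply Alb.ext
    · simp [ph]
    · simp [ph]
    · simp [ph]
    · simp only [ph, om_smul, h1, smul_smul]; rfl
    · simp only [ph, om_smul, h1]; rfl
    · simp only [ph, om_smul, h1]; rfl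
  · rintro _ ⟨r, rfl⟩
    rw [ep_mul_gl]
    have h0 : nrd (0 : Qt (up E a) (up E b)) = 0 := by simp [nrd]
    have h1 : nrd (ep al : Qt (up E a) (up E b)) = 0 := by
      rw [nrd_co hal', e2, e3]; ring
    have h2 : star (ep al) * (ep al : Qt (up E a) (up E b)) = 0 := by
      apply ext_co two_ne_zero hal' <;>
        simp only [ca_mul hal', cb_mul hal', cg_mul hal', cd_mul hal', e1, e2, e3, e4, ca_star,
          cb_star, cg_star, cd_star, ca_zero, cb_zero, cg_zero, cd_zero] <;> ring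
    have h3 : Oct.norm (⟨0, ep al⟩ : OctL E a b c) = 0 := by
      rw [Oct.norm, h0, h1]; ring
    have h4 : (⟨0, ep al⟩ : OctL E a b c) * ⟨0, ep al⟩ = 0 := by
      apply Oct.ext
      · rw [fst_mul]
        simp only [h2, mul_zero, smul_zero, add_zero, fst_zero]
      · rw [snd_mul]
        simp only [mul_zero, star_zero, add_zero, snd_zero]
    apply Alb.ext
    · simp only [adj, Oct.norm_smul, h3, d1_zero]; ring
    · simp only [adj, Oct.norm_smul, h3, d2_zero]; ring
    · simp only [adj, Oct.norm_smul, h3, d3_zero]; ring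
    · simp only [adj, smul_mul_oct, mul_smul_oct, h4, smul_zero, star_zero, zero_smul, sub_zero,
        x1_zero]
    · simp only [adj, smul_mul_oct, mul_smul_oct, h4, smul_zero, star_zero, zero_smul, sub_zero,
        x2_zero]
    · simp only [adj, smul_mul_oct, mul_smul_oct, h4, smul_zero, star_zero, zero_smul, sub_zero,
        x3_zero]

end gen

end Vale.Agent.P011.E6O.H493

namespace Vale.Agent.P011.E6O

open Vale.Agent.P011.MPQ Vale.Agent.P011.D4 Vale.Agent.P011.D4.Oct Vale.Agent.P011.E6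

variable {k E : Type} [Field k] [NumberField k] [Field E] [NumberField E] [Algebra k E]
  {ρ σ : E ≃ₐ[k] E} {lam : Eˣ} {g : Fin 3 → Eˣ} {al s : E} {a b c : kˣ}

/-- **SLIDE**: every element of the group carries the first standard point to a standard point, up
to an element of the residual. -/
theorem slide (H : Hyp ρ σ lam g al s a b c)
    {h : AlbL E a b c ≃ₗ[E] AlbL E a b c} (hh : h ∈ GO ρ σ lam g a b c) :
    ∃ n ∈ Res ρ σ lam g a b c, ∃ w : Oct a b c, Perp w ∧
      (Pw al (gl : Oct a b c)).map ((n * h : AlbL E a b c ≃ₗ[E] AlbL E a b c) :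
        AlbL E a b c →ₗ[E] AlbL E a b c) = Pw al w := by
  obtain ⟨n, hn, w, hw, h1⟩ := H493.good_all H (H493.isPt_map hh (H493.isPt_std H))
  exact ⟨n, hn, w, hw, by rw [H493.map_mul', h1]⟩

end Vale.Agent.P011.E6O
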